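import Vale.Agent.P204.Defs
namespace Vale.Agent.P204
open Matrix


/-- the first basis vector -/
def e0 : V := Pi.single 0 1

section alg
variable (B : V →ₗ[ℝ] V →ₗ[ℝ] ℝ) (j : V →ₗ[ℝ] V) (s : ℝ)

noncomputable def nn : V := j e0 - (j e0 0) • e0
noncomputable def DD : ℝ := 1 + (j e0 0) ^ 2
noncomputable def fa (u : V) : ℝ := -(j u 0) / DD j
noncomputable def fc (u : V) : ℝ := -(u 0) / DD j
noncomputable def ll (u : V) : V := u - fa j u • nn j - fc j u • j (nn j)

noncomputable def GG (u v : V) : ℝ :=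
  B (ll j u) (ll j v) + fa j v * B (ll j u) (nn j) - fc j v * B (j (ll j u)) (nn j)
    - fa j u * B (ll j v) (nn j) + fc j u * B (j (ll j v)) (nn j)
    + s * (fa j u * fc j v - fc j u * fa j v)

theorem DD_pos : 0 < DD j := by unfold DD; positivity

theorem nn_zero : nn j 0 = 0 := by simp [nn, e0]

variable {j}
theorem jn_zero (hj : ∀ u, j (j u) = -u) : j (nn j) 0 = -DD j := by
  unfold nn DD
  rw [map_sub, map_smul, hj]
  simp [e0]
  ring

theorem fa_add (u v : V) : fa j (u + v) = fa j u + fa j v := by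
  unfold fa; rw [map_add]; simp; ring
theorem fa_smul (r : ℝ) (u : V) : fa j (r • u) = r * fa j u := by
  unfold fa; rw [map_smul]; simp; ring
theorem fc_add (u v : V) : fc j (u + v) = fc j u + fc j v := by
  unfold fc; simp; ring
theorem fc_smul (r : ℝ) (u : V) : fc j (r • u) = r * fc j u := by
  unfold fc; simp; ring
theorem ll_add (u v : V) : ll j (u + v) = ll j u + ll j v := by
  unfold ll; rw [fa_add, fc_add]; module
theorem ll_smul (r : ℝ) (u : V) : ll j (r • u) = r • ll j u := by
  unfold ll; rw [fa_smul, fc_smul]; module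

theorem ll_zero (hj : ∀ u, j (j u) = -u) (u : V) : ll j u 0 = 0 := by
  have h := jn_zero hj
  have hn := nn_zero j
  have hD := (DD_pos j).ne'
  simp only [ll, Pi.sub_apply, Pi.smul_apply, smul_eq_mul, h, hn]
  unfold fc
  field_simp
  ring

theorem jll_zero (hj : ∀ u, j (j u) = -u) (u : V) : j (ll j u) 0 = 0 := by
  have h := jn_zero hj
  have hn := nn_zero j
  have hD := (DD_pos j).ne'
  unfold ll
  rw [map_sub, map_sub, map_smul, map_smul, hj]
  simp only [Pi.sub_apply, Pi.smul_apply, Pi.neg_apply, smul_eq_mul, h, hn]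
  unfold fa
  field_simp
  ring

theorem fa_j (hj : ∀ u, j (j u) = -u) (u : V) : fa j (j u) = -fc j u := by
  unfold fa fc; rw [hj]; simp; ring
theorem fc_j (u : V) : fc j (j u) = fa j u := rfl
theorem ll_j (hj : ∀ u, j (j u) = -u) (u : V) : ll j (j u) = j (ll j u) := by
  unfold ll
  rw [fa_j hj, fc_j, map_sub, map_sub, map_smul, map_smul, hj]
  module

variable {B}
theorem GG_inv (hj : ∀ u, j (j u) = -u)
    (hL : ∀ x y : V, x 0 = 0 → j x 0 = 0 → y 0 = 0 → j y 0 = 0 → B (j x) (j y) = B x y)
    (u v : V) : GG B j s (j u) (j v) = GG B j s u v := by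
  unfold GG
  rw [ll_j hj, ll_j hj, fa_j hj, fa_j hj, fc_j, fc_j, hj, hj,
    hL _ _ (ll_zero hj u) (jll_zero hj u) (ll_zero hj v) (jll_zero hj v)]
  simp only [map_neg, LinearMap.neg_apply]
  ring

theorem GG_anti (hB : ∀ u v, B u v = -B v u) (u v : V) : GG B j s u v = -GG B j s v u := by
  unfold GG
  rw [hB (ll j u) (ll j v)]
  ring

theorem GG_H (hB : ∀ u v, B u v = -B v u) (u v : V) (hu : u 0 = 0) (hv : v 0 = 0) :
    GG B j s u v = B u v := by
  have h1 : fc j u = 0 := by unfold fc; rw [hu]; simp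
  have h2 : fc j v = 0 := by unfold fc; rw [hv]; simp
  have hnn : B (nn j) (nn j) = 0 := by have := hB (nn j) (nn j); linarith
  unfold GG ll
  rw [h1, h2]
  simp only [zero_smul, sub_zero, map_sub, map_smul, LinearMap.sub_apply, LinearMap.smul_apply,
    smul_eq_mul, hnn]
  rw [hB (nn j) v]
  ring

theorem GG_self (hj : ∀ u, j (j u) = -u) (u : V) :
    GG B j s u (j u) = (B (ll j u) (j (ll j u)) - 2 * fc j u * B (ll j u) (nn j)
      - 2 * fa j u * B (j (ll j u)) (nn j)) + s * (fa j u ^ 2 + fc j u ^ 2) := by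
  unfold GG
  rw [ll_j hj, fa_j hj, fc_j, hj]
  simp only [map_neg, LinearMap.neg_apply]
  ring

theorem ll_eq_self {u : V} (h1 : fa j u = 0) (h2 : fc j u = 0) : ll j u = u := by
  unfold ll; rw [h1, h2]; simp

/-- the bilinear map -/
noncomputable def GGl (B : V →ₗ[ℝ] V →ₗ[ℝ] ℝ) (j : V →ₗ[ℝ] V) (s : ℝ) : V →ₗ[ℝ] V →ₗ[ℝ] ℝ :=
  LinearMap.mk₂ ℝ (GG B j s)
    (by
      intro u u' v
      unfold GG
      rw [ll_add, fa_add, fc_add]
      simp only [map_add, LinearMap.add_apply]
      ring)
    (by
      intro r u v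
      unfold GG
      rw [ll_smul, fa_smul, fc_smul]
      simp only [map_smul, LinearMap.smul_apply, smul_eq_mul]
      ring)
    (by
      intro u v v'
      unfold GG
      rw [ll_add, fa_add, fc_add]
      simp only [map_add, LinearMap.add_apply]
      ring)
    (by
      intro r u v
      unfold GG
      rw [ll_smul, fa_smul, fc_smul]
      simp only [map_smul, LinearMap.smul_apply, smul_eq_mul]
      ring)

theorem GGl_apply (u v : V) : GGl B j s u v = GG B j s u v := rfl

/-- on the complex line `ker dt ∩ ker (dt ∘ J)` every antisymmetric form is `J`-invariant -/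
theorem inv_L (hj : ∀ u, j (j u) = -u) (hB : ∀ u v, B u v = -B v u)
    (x y : V) (hx : x 0 = 0) (hjx : j x 0 = 0) (hy : y 0 = 0) (hjy : j y 0 = 0) :
    B (j x) (j y) = B x y := by
  by_cases hx0 : x = 0
  · subst hx0; simp
  have hBs : ∀ u, B u u = 0 := fun u => by have := hB u u; linarith
  have hD := (DD_pos j).ne'
  have hn := nn_zero j
  have hjn := jn_zero hj
  have hli : LinearIndependent ℝ ![nn j, j (nn j), x, j x] := by
    rw [Fintype.linearIndependent_iff]
    intro g hg
    simp only [Fin.sum_univ_four, Matrix.cons_val_zero, Matrix.cons_val_one, Matrix.cons_val] at hg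
    have h0 := congrFun hg 0
    simp only [Pi.add_apply, Pi.smul_apply, smul_eq_mul, Pi.zero_apply, hn, hjn, hx, hjx] at h0
    have g1 : g 1 = 0 := by
      have : g 1 * DD j = 0 := by linarith
      rcases mul_eq_zero.1 this with h | h
      · exact h
      · exact absurd h hD
    have hg2 := congrArg j hg
    simp only [map_add, map_smul, hj, map_zero] at hg2
    have h1 := congrFun hg2 0
    simp only [Pi.add_apply, Pi.smul_apply, Pi.neg_apply, smul_eq_mul, Pi.zero_apply, hn, hjn, hx,
      hjx] at h1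
    have g0 : g 0 = 0 := by
      have : g 0 * DD j = 0 := by linarith
      rcases mul_eq_zero.1 this with h | h
      · exact h
      · exact absurd h hD
    rw [g0, g1] at hg hg2
    simp only [zero_smul, zero_add] at hg hg2
    -- g2 x + g3 jx = 0, g2 jx - g3 x = 0
    have h3 : (g 2 ^ 2 + g 3 ^ 2) • x = 0 := by
      have e : (g 2 ^ 2 + g 3 ^ 2) • x
          = g 2 • (g 2 • x + g 3 • j x) - g 3 • (g 2 • j x + g 3 • -x) := by module
      rw [e, hg, hg2]; simp
    have h4 : g 2 ^ 2 + g 3 ^ 2 = 0 := by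
      rcases smul_eq_zero.1 h3 with h | h
      · exact h
      · exact absurd h hx0
    have g2 : g 2 = 0 := by nlinarith [sq_nonneg (g 2), sq_nonneg (g 3)]
    have g3 : g 3 = 0 := by nlinarith [sq_nonneg (g 2), sq_nonneg (g 3)]
    intro i
    fin_cases i
    · exact g0
    · exact g1
    · exact g2
    · exact g3
  have hspan := hli.span_eq_top_of_card_eq_finrank (by simp)
  have hy' : y ∈ Submodule.span ℝ (Set.range ![nn j, j (nn j), x, j x]) := by
    rw [hspan]; trivial
  obtain ⟨g, hg⟩ := (Submodule.mem_span_range_iff_exists_fun ℝ).1 hy'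
  simp only [Fin.sum_univ_four, Matrix.cons_val_zero, Matrix.cons_val_one, Matrix.cons_val] at hg
  have h0 := congrFun hg 0
  simp only [Pi.add_apply, Pi.smul_apply, smul_eq_mul, hn, hjn, hx, hjx, hy] at h0
  have g1 : g 1 = 0 := by
    have : g 1 * DD j = 0 := by linarith
    rcases mul_eq_zero.1 this with h | h
    · exact h
    · exact absurd h hD
  have hg2 := congrArg j hg
  simp only [map_add, map_smul, hj] at hg2
  have h1 := congrFun hg2 0
  simp only [Pi.add_apply, Pi.smul_apply, Pi.neg_apply, smul_eq_mul, hn, hjn, hx,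
    hjx, hjy] at h1
  have g0 : g 0 = 0 := by
    have : g 0 * DD j = 0 := by linarith
    rcases mul_eq_zero.1 this with h | h
    · exact h
    · exact absurd h hD
  rw [g0, g1] at hg
  simp only [zero_smul, zero_add] at hg
  rw [← hg]
  simp only [map_add, map_smul, hj, map_neg, smul_eq_mul, hBs]
  rw [hB (j x) x]
  ring
end alg
end Vale.Agent.P204
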