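import Vale.Agent.P204.Alg

namespace Vale.Agent.P204
open Matrix MeasureTheory Set
open scoped ContDiff

/-- the point of `ℝ⁴` with first coordinate `t` and remaining coordinates `y` -/
noncomputable def emb (t : ℝ) (y : Fin 3 → ℝ) : V := (0 : Fin 4).insertNth (α := fun _ => ℝ) t y

noncomputable def avg (f : V → ℝ) (t : ℝ) : ℝ := ∫ y in Icc (0 : Fin 3 → ℝ) 1, f (emb t y)

theorem emb_zero (t : ℝ) (y : Fin 3 → ℝ) : emb t y 0 = t := by
  simp [emb]

theorem emb_cont (t : ℝ) : Continuous (emb t) := by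
  unfold emb
  fun_prop

theorem avg_const_le {w : V → Matrix (Fin 4) (Fin 4) ℝ} (hw : IsClosedForm w) {j k : Fin 4}
    (hj : j ≠ 0) (hk : k ≠ 0) (hjk : j ≠ k) {t₁ t₂ : ℝ} (h : t₁ ≤ t₂) :
    avg (fun x => w x j k) t₁ = avg (fun x => w x j k) t₂ := by
  classical
  set F : Fin 4 → V → ℝ := fun i x =>
    if i = 0 then w x j k else if i = j then w x k 0 else if i = k then w x 0 j else 0 with hF
  have hdiff : ∀ a b, Differentiable ℝ (fun x => w x a b) := fun a b =>
    (hw.smooth a b).1.differentiable (by simp)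
  have hFs : ∀ i, ContDiff ℝ ∞ (F i) := by
    intro i
    rw [hF]
    by_cases h0 : i = 0
    · simp only [h0, if_true]; exact (hw.smooth j k).1
    by_cases h1 : i = j
    · simp only [h0, h1, if_true, if_false, hj]; exact (hw.smooth k 0).1
    by_cases h2 : i = k
    · simp only [h2, if_true, if_false, hk, hjk.symm]; exact (hw.smooth 0 j).1
    · simp only [h0, h1, h2, if_false]; exact contDiff_const
  have hFp : ∀ i x, F i (x + Pi.single i 1) = F i x := by
    intro i x
    rw [hF]
    simp only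
    have a1 : w (x + Pi.single i 1) j k = w x j k := (hw.smooth j k).2 x i
    have a2 : w (x + Pi.single i 1) k 0 = w x k 0 := (hw.smooth k 0).2 x i
    have a3 : w (x + Pi.single i 1) 0 j = w x 0 j := (hw.smooth 0 j).2 x i
    rw [a1, a2, a3]
  have hdiv : ∀ x, ∑ i, (fderiv ℝ (F i) x) (Pi.single i 1) = 0 := by
    intro x
    have h0 : ∀ i, i ∉ ({0, j, k} : Finset (Fin 4)) → (fderiv ℝ (F i) x) (Pi.single i 1) = 0 := by
      intro i hi
      simp only [Finset.mem_insert, Finset.mem_singleton, not_or] at hi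
      have : F i = fun _ => 0 := by
        rw [hF]; simp [hi.1, hi.2.1, hi.2.2]
      rw [this]; simp
    rw [← Finset.sum_subset (Finset.subset_univ ({0, j, k} : Finset (Fin 4)))
      (fun i _ hi => h0 i hi)]
    rw [Finset.sum_insert (by simp [hj.symm, hk.symm]), Finset.sum_insert (by simp [hjk]),
      Finset.sum_singleton]
    have e0 : F 0 = fun x => w x j k := by rw [hF]; simp
    have e1 : F j = fun x => w x k 0 := by rw [hF]; simp [hj]
    have e2 : F k = fun x => w x 0 j := by rw [hF]; simp [hk, hjk.symm]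
    rw [e0, e1, e2]
    have := hw.closed x 0 j k
    unfold pd at this
    linarith
  have key := integral_divergence_of_hasFDerivAt_off_countable'
    ((0 : Fin 4).insertNth (α := fun _ => ℝ) t₁ (0 : Fin 3 → ℝ))
    ((0 : Fin 4).insertNth (α := fun _ => ℝ) t₂ (1 : Fin 3 → ℝ))
    (by
      intro i
      refine Fin.cases ?_ (fun i => ?_) i
      · simpa using h
      · simp)
    F (fun i x => fderiv ℝ (F i) x) ∅ countable_empty
    (fun i => (hFs i).continuous.continuousOn)
    (fun x _ i => ((hFs i).differentiable (by simp) x).hasFDerivAt)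
    (by
      simp only [hdiv]
      exact integrableOn_zero)
  simp only [hdiv] at key
  rw [integral_zero, Fin.sum_univ_succ] at key
  have hz : ∀ i : Fin 3, (∫ (x : Fin 3 → ℝ) in
        Icc ((Fin.insertNth 0 t₁ (0 : Fin 3 → ℝ) : V) ∘ i.succ.succAbove)
        ((Fin.insertNth 0 t₂ (1 : Fin 3 → ℝ) : V) ∘ i.succ.succAbove),
        F i.succ (i.succ.insertNth ((Fin.insertNth 0 t₂ (1 : Fin 3 → ℝ) : V) i.succ) x))
      - (∫ (x : Fin 3 → ℝ) in
        Icc ((Fin.insertNth 0 t₁ (0 : Fin 3 → ℝ) : V) ∘ i.succ.succAbove)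
        ((Fin.insertNth 0 t₂ (1 : Fin 3 → ℝ) : V) ∘ i.succ.succAbove),
        F i.succ (i.succ.insertNth ((Fin.insertNth 0 t₁ (0 : Fin 3 → ℝ) : V) i.succ) x)) = 0 := by
    intro i
    rw [sub_eq_zero]
    refine integral_congr_ae (Filter.Eventually.of_forall fun x => ?_)
    have e1 : ((Fin.insertNth 0 t₂ (1 : Fin 3 → ℝ) : V) i.succ) = 1 := by simp
    have e2 : ((Fin.insertNth 0 t₁ (0 : Fin 3 → ℝ) : V) i.succ) = 0 := by simp
    simp only
    rw [e1, e2]
    have e3 : (i.succ.insertNth (α := fun _ => ℝ) (1 : ℝ) x : V)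
        = i.succ.insertNth (α := fun _ => ℝ) (0 : ℝ) x + Pi.single i.succ 1 := by
      funext l
      refine Fin.succAboveCases i.succ ?_ (fun l => ?_) l
      · simp
      · simp [Fin.succAbove_ne]
    rw [e3, hFp]
  rw [Finset.sum_eq_zero (fun i _ => hz i), add_zero] at key
  have hF0 : F 0 = fun x => w x j k := by rw [hF]; simp
  rw [hF0] at key
  have c1 : ((Fin.insertNth 0 t₁ (0 : Fin 3 → ℝ) : V) ∘ (0 : Fin 4).succAbove) = 0 := by
    funext l; simp
  have c2 : ((Fin.insertNth 0 t₂ (1 : Fin 3 → ℝ) : V) ∘ (0 : Fin 4).succAbove) = 1 := by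
    funext l; simp
  rw [c1, c2] at key
  have d1 : (Fin.insertNth 0 t₁ (0 : Fin 3 → ℝ) : V) 0 = t₁ := by simp
  have d2 : (Fin.insertNth 0 t₂ (1 : Fin 3 → ℝ) : V) 0 = t₂ := by simp
  rw [d1, d2] at key
  unfold avg emb
  linarith

theorem avg_const {w : V → Matrix (Fin 4) (Fin 4) ℝ} (hw : IsClosedForm w) {j k : Fin 4}
    (hj : j ≠ 0) (hk : k ≠ 0) (t₁ t₂ : ℝ) :
    avg (fun x => w x j k) t₁ = avg (fun x => w x j k) t₂ := by
  by_cases hjk : j = k
  · subst hjk
    have : (fun x => w x j j) = fun _ => 0 := by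
      funext x; have := hw.anti x j j; linarith
    rw [this]; simp [avg]
  rcases le_total t₁ t₂ with h | h
  · exact avg_const_le hw hj hk hjk h
  · exact (avg_const_le hw hj hk hjk h).symm

end Vale.Agent.P204
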