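import Mathlib

/-! # P204: tensor fields on the four-torus `ℝ⁴ / ℤ⁴`, as periodic matrix-valued functions -/

namespace Vale.Agent.P204
open Matrix
open scoped ContDiff

abbrev V := Fin 4 → ℝ

/-- A smooth function on the four-torus `ℝ⁴ / ℤ⁴`: a smooth `ℤ⁴`-periodic function on `ℝ⁴`. -/
def IsTorusFun (f : V → ℝ) : Prop :=
  ContDiff ℝ ∞ f ∧ ∀ (x : V) (i : Fin 4), f (x + Pi.single i 1) = f x

/-- The derivative of `f` in the `i`-th coordinate direction. -/
noncomputable def pd (i : Fin 4) (f : V → ℝ) (x : V) : ℝ := fderiv ℝ f x (Pi.single i 1)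

/-- A closed smooth two-form on the torus, `ω = ∑_{j<k} w_{jk} dx_j ∧ dx_k`, given by its
antisymmetric matrix of coefficients: `ω(u, v) = ∑ u_j w_{jk} v_k`. -/
structure IsClosedForm (w : V → Matrix (Fin 4) (Fin 4) ℝ) : Prop where
  smooth : ∀ j k, IsTorusFun fun x => w x j k
  anti : ∀ x j k, w x j k = -w x k j
  closed : ∀ x i j k, pd i (fun y => w y j k) x + pd j (fun y => w y k i) x
    + pd k (fun y => w y i j) x = 0

/-- A smooth almost complex structure on the torus. -/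
structure IsAlmostComplex (J : V → Matrix (Fin 4) (Fin 4) ℝ) : Prop where
  smooth : ∀ j k, IsTorusFun fun x => J x j k
  sq : ∀ x, J x * J x = -1

/-- `ω(u, J u) > 0` for every nonzero tangent vector. -/
def Tames (w J : V → Matrix (Fin 4) (Fin 4) ℝ) : Prop :=
  ∀ (x u : V), u ≠ 0 → 0 < u ⬝ᵥ (w x *ᵥ (J x *ᵥ u))

/-- `ω(J u, J v) = ω(u, v)` for all tangent vectors at the same point. -/
def IsInvariant (w J : V → Matrix (Fin 4) (Fin 4) ℝ) : Prop :=
  ∀ (x u v : V), (J x *ᵥ u) ⬝ᵥ (w x *ᵥ (J x *ᵥ v)) = u ⬝ᵥ (w x *ᵥ v)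

end Vale.Agent.P204
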