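import Vale.Agent.P204.Pos

namespace Vale.Agent.P204
open Matrix MeasureTheory Set
open scoped ContDiff

section smooth
variable {E : Type*} [NormedAddCommGroup E] [NormedSpace ℝ E]
variable {jj : E → V →ₗ[ℝ] V}

theorem cd_coord {F : E → V} (hF : ContDiff ℝ ∞ F) (i : Fin 4) :
    ContDiff ℝ ∞ (fun x => F x i) := (contDiff_pi.1 hF) i

theorem cd_nn (hj : ∀ F : E → V, ContDiff ℝ ∞ F → ContDiff ℝ ∞ (fun x => jj x (F x))) :
    ContDiff ℝ ∞ (fun x => nn (jj x)) := by
  unfold nn
  have h1 := hj (fun _ => e0) contDiff_const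
  exact h1.sub ((cd_coord h1 0).smul contDiff_const)

theorem cd_DD (hj : ∀ F : E → V, ContDiff ℝ ∞ F → ContDiff ℝ ∞ (fun x => jj x (F x))) :
    ContDiff ℝ ∞ (fun x => DD (jj x)) := by
  unfold DD
  have h1 := hj (fun _ => e0) contDiff_const
  exact contDiff_const.add ((cd_coord h1 0).pow 2)

theorem cd_fa (hj : ∀ F : E → V, ContDiff ℝ ∞ F → ContDiff ℝ ∞ (fun x => jj x (F x)))
    {F : E → V} (hF : ContDiff ℝ ∞ F) : ContDiff ℝ ∞ (fun x => fa (jj x) (F x)) := by
  unfold fa
  exact (cd_coord (hj F hF) 0).neg.div (cd_DD hj) fun x => (DD_pos _).ne'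

theorem cd_fc (hj : ∀ F : E → V, ContDiff ℝ ∞ F → ContDiff ℝ ∞ (fun x => jj x (F x)))
    {F : E → V} (hF : ContDiff ℝ ∞ F) : ContDiff ℝ ∞ (fun x => fc (jj x) (F x)) := by
  unfold fc
  exact (cd_coord hF 0).neg.div (cd_DD hj) fun x => (DD_pos _).ne'

theorem cd_ll (hj : ∀ F : E → V, ContDiff ℝ ∞ F → ContDiff ℝ ∞ (fun x => jj x (F x)))
    {F : E → V} (hF : ContDiff ℝ ∞ F) : ContDiff ℝ ∞ (fun x => ll (jj x) (F x)) := by
  unfold ll
  exact (hF.sub ((cd_fa hj hF).smul (cd_nn hj))).sub ((cd_fc hj hF).smul (hj _ (cd_nn hj)))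

theorem cd_B (M : Matrix (Fin 4) (Fin 4) ℝ) {F G : E → V} (hF : ContDiff ℝ ∞ F)
    (hG : ContDiff ℝ ∞ G) : ContDiff ℝ ∞ (fun x => Matrix.toLinearMap₂' ℝ M (F x) (G x)) := by
  simp only [Matrix.toLinearMap₂'_apply', dotProduct, mulVec]
  refine ContDiff.sum fun i _ => (cd_coord hF i).mul ?_
  exact ContDiff.sum fun k _ => contDiff_const.mul (cd_coord hG k)

theorem cd_GG (M : Matrix (Fin 4) (Fin 4) ℝ) (s : ℝ)
    (hj : ∀ F : E → V, ContDiff ℝ ∞ F → ContDiff ℝ ∞ (fun x => jj x (F x)))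
    {F G : E → V} (hF : ContDiff ℝ ∞ F) (hG : ContDiff ℝ ∞ G) :
    ContDiff ℝ ∞ (fun x => GG (Matrix.toLinearMap₂' ℝ M) (jj x) s (F x) (G x)) := by
  unfold GG
  have a1 := cd_fa hj hF
  have a2 := cd_fa hj hG
  have c1 := cd_fc hj hF
  have c2 := cd_fc hj hG
  have l1 := cd_ll hj hF
  have l2 := cd_ll hj hG
  have n := cd_nn hj
  exact (((((cd_B M l1 l2).add (a2.mul (cd_B M l1 n))).sub (c2.mul (cd_B M (hj _ l1) n))).sub
    (a1.mul (cd_B M l2 n))).add (c1.mul (cd_B M (hj _ l2) n))).add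
    (contDiff_const.mul ((a1.mul c2).sub (c1.mul a2)))

theorem cd_Q (M : Matrix (Fin 4) (Fin 4) ℝ)
    (hj : ∀ F : E → V, ContDiff ℝ ∞ F → ContDiff ℝ ∞ (fun x => jj x (F x)))
    {F : E → V} (hF : ContDiff ℝ ∞ F) :
    ContDiff ℝ ∞ (fun x => Matrix.toLinearMap₂' ℝ M (ll (jj x) (F x)) (jj x (ll (jj x) (F x)))
      - 2 * fc (jj x) (F x) * Matrix.toLinearMap₂' ℝ M (ll (jj x) (F x)) (nn (jj x))
      - 2 * fa (jj x) (F x) * Matrix.toLinearMap₂' ℝ M (jj x (ll (jj x) (F x))) (nn (jj x))) := by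
  have a1 := cd_fa hj hF
  have c1 := cd_fc hj hF
  have l1 := cd_ll hj hF
  have n := cd_nn hj
  exact ((cd_B M l1 (hj _ l1)).sub ((contDiff_const.mul c1).mul (cd_B M l1 n))).sub
    ((contDiff_const.mul a1).mul (cd_B M (hj _ l1) n))

end smooth

/-- the linear map of `J x` -/
noncomputable def jm (J : V → Matrix (Fin 4) (Fin 4) ℝ) (x : V) : V →ₗ[ℝ] V :=
  Matrix.mulVecLin (J x)

theorem jm_apply (J : V → Matrix (Fin 4) (Fin 4) ℝ) (x u : V) : jm J x u = J x *ᵥ u := rfl

theorem jm_sq {J : V → Matrix (Fin 4) (Fin 4) ℝ} (hJ : IsAlmostComplex J) (x u : V) :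
    jm J x (jm J x u) = -u := by
  rw [jm_apply, jm_apply, mulVec_mulVec, hJ.sq]
  rw [neg_mulVec, one_mulVec]

theorem jm_cd {J : V → Matrix (Fin 4) (Fin 4) ℝ} (hJ : IsAlmostComplex J)
    {E : Type*} [NormedAddCommGroup E] [NormedSpace ℝ E] {P : E → V} (hP : ContDiff ℝ ∞ P)
    (F : E → V) (hF : ContDiff ℝ ∞ F) : ContDiff ℝ ∞ (fun x => jm J (P x) (F x)) := by
  rw [contDiff_pi]
  intro i
  simp only [jm_apply, mulVec, dotProduct]
  exact ContDiff.sum fun k _ => (((hJ.smooth i k).1.comp hP)).mul (cd_coord hF k)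

/-- the homogeneity of the quadratic form -/
theorem GG_smul (B : V →ₗ[ℝ] V →ₗ[ℝ] ℝ) (j : V →ₗ[ℝ] V) (s r : ℝ) (u : V) :
    GG B j s (r • u) (j (r • u)) = r ^ 2 * GG B j s u (j u) := by
  rw [← GGl_apply, ← GGl_apply, map_smul, map_smul, map_smul, LinearMap.smul_apply]
  simp only [smul_eq_mul]
  ring

theorem exists_uniform {w J : V → Matrix (Fin 4) (Fin 4) ℝ} (hw : IsClosedForm w)
    (hJ : IsAlmostComplex J) (hJi : ∀ x y : V, x 0 = y 0 → J x = J y) (hT : Tames w J) :
    ∃ s : ℝ, ∀ (x u : V), u ≠ 0 →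
      0 < GG (Matrix.toLinearMap₂' ℝ (bm w)) (jm J x) s u (jm J x u) := by
  set B : V →ₗ[ℝ] V →ₗ[ℝ] ℝ := Matrix.toLinearMap₂' ℝ (bm w) with hB
  let K : Set (ℝ × V) := Icc (0 : ℝ) 1 ×ˢ Metric.sphere (0 : V) 1
  have hK : IsCompact K := isCompact_Icc.prod (isCompact_sphere _ _)
  let P : ℝ × V → V := fun p => p.1 • e0
  have hP : ContDiff ℝ ∞ P := contDiff_fst.smul contDiff_const
  have hj := jm_cd hJ hP
  have hF : ContDiff ℝ ∞ (fun p : ℝ × V => p.2) := contDiff_snd
  obtain ⟨s, hs⟩ := exists_s hK (cd_Q (bm w) hj hF).continuous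
    (((cd_fa hj hF).pow 2).add ((cd_fc hj hF).pow 2)).continuous
    (fun p _ => by positivity)
    (by
      rintro ⟨t, u⟩ ⟨_, hu⟩ hg
      simp only at hg ⊢
      have h1 : fa (jm J (P (t, u))) u = 0 := by
        nlinarith [sq_nonneg (fa (jm J (P (t, u))) u), sq_nonneg (fc (jm J (P (t, u))) u)]
      have h2 : fc (jm J (P (t, u))) u = 0 := by
        nlinarith [sq_nonneg (fa (jm J (P (t, u))) u), sq_nonneg (fc (jm J (P (t, u))) u)]
      have h3 := ll_eq_self h1 h2
      rw [h1, h2, h3]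
      have hu0 : u ≠ 0 := by
        rintro rfl
        simp at hu
      have h4 : u 0 = 0 := by rw [← h3]; exact ll_zero (jm_sq hJ _) u
      have h5 : (jm J (P (t, u)) u) 0 = 0 := by
        have := jll_zero (jm_sq hJ (P (t, u))) u
        rwa [h3] at this
      have h6 := bm_pos hw hJi hT (P (t, u)) u hu0 h4 h5
      rw [Matrix.toLinearMap₂'_apply']
      simpa [jm_apply] using h6)
  refine ⟨s, fun x u hu => ?_⟩
  -- reduce to the compact set
  have hfr : J x = J (Int.fract (x 0) • e0) := by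
    have hper : ∀ (n : ℤ) (y : V) , J (y + (n : ℝ) • e0) = J y := by
      intro n
      have h1 : ∀ y : V, J (y + e0) = J y := by
        intro y
        ext i k
        exact (hJ.smooth i k).2 y 0
      induction n using Int.induction_on with
      | zero => intro y; simp
      | succ n ih =>
        intro y
        have : y + (((n : ℤ) + 1 : ℤ) : ℝ) • e0 = (y + ((n : ℤ) : ℝ) • e0) + e0 := by
          push_cast; module
        rw [this, h1, ih]
      | pred n ih =>
        intro y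
        have : y + ((-(n : ℤ) : ℤ) : ℝ) • e0 = (y + ((-(n : ℤ) - 1 : ℤ) : ℝ) • e0) + e0 := by
          push_cast; module
        rw [← h1, ← this, ih]
    have h2 := hper ⌊x 0⌋ (Int.fract (x 0) • e0)
    rw [← h2]
    apply hJi
    have : (Int.fract (x 0) • e0 + (⌊x 0⌋ : ℝ) • e0 : V) 0 = x 0 := by
      simp [e0, Int.fract_add_floor]
    rw [this]
  have hjx : jm J x = jm J (Int.fract (x 0) • e0) := by unfold jm; rw [hfr]
  rw [hjx]
  have hn : 0 < ‖u‖ := norm_pos_iff.2 hu
  have hu' : u = ‖u‖ • (‖u‖⁻¹ • u) := by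
    rw [smul_smul, mul_inv_cancel₀ hn.ne', one_smul]
  have hmem : ((Int.fract (x 0), ‖u‖⁻¹ • u) : ℝ × V) ∈ K := by
    refine ⟨⟨Int.fract_nonneg _, (Int.fract_lt_one _).le⟩, ?_⟩
    rw [mem_sphere_zero_iff_norm, norm_smul, norm_inv, norm_norm, inv_mul_cancel₀ hn.ne']
  have h := hs _ hmem
  rw [hu', GG_smul]
  refine mul_pos (by positivity) ?_
  rw [GG_self s (jm_sq hJ _)]
  exact h

/-- the compatible form -/
noncomputable def wn (w J : V → Matrix (Fin 4) (Fin 4) ℝ) (s : ℝ) (x : V) :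
    Matrix (Fin 4) (Fin 4) ℝ :=
  LinearMap.toMatrix₂' ℝ (GGl (Matrix.toLinearMap₂' ℝ (bm w)) (jm J x) s)

theorem wn_apply (w J : V → Matrix (Fin 4) (Fin 4) ℝ) (s : ℝ) (x u v : V) :
    u ⬝ᵥ (wn w J s x *ᵥ v) = GG (Matrix.toLinearMap₂' ℝ (bm w)) (jm J x) s u v := by
  have h : u ⬝ᵥ (wn w J s x *ᵥ v) = Matrix.toLinearMap₂' ℝ (wn w J s x) u v :=
    (Matrix.toLinearMap₂'_apply' _ _ _).symm
  rw [h, wn, Matrix.toLinearMap₂'_toMatrix', GGl_apply]

theorem wn_entry (w J : V → Matrix (Fin 4) (Fin 4) ℝ) (s : ℝ) (x : V) (i k : Fin 4) :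
    wn w J s x i k = GG (Matrix.toLinearMap₂' ℝ (bm w)) (jm J x) s (Pi.single i 1)
      (Pi.single k 1) := by
  rw [wn, LinearMap.toMatrix₂'_apply, GGl_apply]

theorem pd_neg (i : Fin 4) (f : V → ℝ) (x : V) : pd i (fun y => -f y) x = -pd i f x := by
  unfold pd
  rw [fderiv_fun_neg]; simp

theorem pd_eq_zero_of_dep {f : V → ℝ} (hf : Differentiable ℝ f)
    (h : ∀ x y : V, x 0 = y 0 → f x = f y) {i : Fin 4} (hi : i ≠ 0) (x : V) : pd i f x = 0 := by
  unfold pd
  have h1 : HasDerivAt (fun t : ℝ => f (x + t • Pi.single i 1)) (fderiv ℝ f x (Pi.single i 1)) 0 := by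
    have h2 : HasDerivAt (fun t : ℝ => x + t • (Pi.single i 1 : V)) (Pi.single i 1) 0 := by
      have := ((hasDerivAt_id (0 : ℝ)).smul_const (Pi.single i 1 : V)).const_add x
      simpa using this
    have h3 : HasFDerivAt f (fderiv ℝ f x) (x + (0 : ℝ) • (Pi.single i 1 : V)) := by
      simpa using (hf x).hasFDerivAt
    exact h3.comp_hasDerivAt 0 h2
  have h4 : (fun t : ℝ => f (x + t • Pi.single i 1)) = fun _ => f x := by
    funext t
    apply h
    simp [Pi.single_eq_of_ne (Ne.symm hi)]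
  rw [h4] at h1
  exact h1.unique (hasDerivAt_const _ _)

theorem main {J : V → Matrix (Fin 4) (Fin 4) ℝ} (hJ : IsAlmostComplex J)
    (hJi : ∀ x y : V, x 0 = y 0 → J x = J y) {w : V → Matrix (Fin 4) (Fin 4) ℝ}
    (hw : IsClosedForm w) (hT : Tames w J) :
    ∃ w' : V → Matrix (Fin 4) (Fin 4) ℝ, IsClosedForm w' ∧ Tames w' J ∧ IsInvariant w' J := by
  obtain ⟨s, hs⟩ := exists_uniform hw hJ hJi hT
  set B : V →ₗ[ℝ] V →ₗ[ℝ] ℝ := Matrix.toLinearMap₂' ℝ (bm w) with hB
  have hBanti : ∀ u v, B u v = -B v u := by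
    intro u v
    rw [hB, Matrix.toLinearMap₂'_apply', Matrix.toLinearMap₂'_apply']
    simp only [dotProduct, mulVec, Finset.mul_sum]
    rw [Finset.sum_comm, ← Finset.sum_neg_distrib]
    refine Finset.sum_congr rfl fun i _ => ?_
    rw [← Finset.sum_neg_distrib]
    refine Finset.sum_congr rfl fun k _ => ?_
    rw [bm_anti hw k i]; ring
  have hsm : ∀ i k, ContDiff ℝ ∞ (fun x => wn w J s x i k) := by
    intro i k
    simp only [wn_entry]
    exact cd_GG (bm w) s (jm_cd hJ contDiff_id) contDiff_const contDiff_const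
  have hdep : ∀ i k, ∀ x y : V, x 0 = y 0 → wn w J s x i k = wn w J s y i k := by
    intro i k x y hxy
    unfold wn jm
    rw [hJi x y hxy]
  have hper : ∀ i k, ∀ (x : V) (l : Fin 4), wn w J s (x + Pi.single l 1) i k = wn w J s x i k := by
    intro i k x l
    have : J (x + Pi.single l 1) = J x := by
      ext a b
      exact (hJ.smooth a b).2 x l
    unfold wn jm
    rw [this]
  have hanti : ∀ x i k, wn w J s x i k = -wn w J s x k i := by
    intro x i k
    rw [wn_entry, wn_entry]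
    exact GG_anti s hBanti _ _
  have hconst : ∀ i k, i ≠ 0 → k ≠ 0 → ∀ x, wn w J s x i k = bm w i k := by
    intro i k hi hk x
    rw [wn_entry, GG_H s hBanti _ _ (by simp [Pi.single_eq_of_ne (Ne.symm hi)])
      (by simp [Pi.single_eq_of_ne (Ne.symm hk)])]
    rw [hB, Matrix.toLinearMap₂'_apply']
    simp
  refine ⟨wn w J s, ⟨fun i k => ⟨hsm i k, hper i k⟩, hanti, ?_⟩, ?_, ?_⟩
  · intro x i j k
    have p1 : ∀ l a b, l ≠ 0 → pd l (fun y => wn w J s y a b) x = 0 := fun l a b hl =>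
      pd_eq_zero_of_dep ((hsm a b).differentiable (by simp)) (hdep a b) hl x
    have p2 : ∀ l a b, a ≠ 0 → b ≠ 0 → pd l (fun y => wn w J s y a b) x = 0 := by
      intro l a b ha hb
      have : (fun y => wn w J s y a b) = fun _ => bm w a b := by
        funext y; exact hconst a b ha hb y
      rw [this]; unfold pd; simp
    have p3 : ∀ l a b, pd l (fun y => wn w J s y a b) x = -pd l (fun y => wn w J s y b a) x := by
      intro l a b
      rw [← pd_neg]
      have : (fun y => wn w J s y a b) = fun y => -wn w J s y b a := by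
        funext y; exact hanti y a b
      rw [this]
    by_cases hi : i = 0
    · by_cases hj : j = 0
      · by_cases hk : k = 0
        · subst hi; subst hj; subst hk
          have := p3 0 0 0
          linarith
        · subst hi; subst hj
          have h1 := p3 0 0 k
          have h2 := p1 k 0 0 hk
          linarith
      · by_cases hk : k = 0
        · subst hi; subst hk
          have h1 := p3 0 j 0
          have h2 := p1 j 0 0 hj
          linarith
        · subst hi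
          have h1 := p2 0 j k hj hk
          have h2 := p1 j k 0 hj
          have h3 := p1 k 0 j hk
          linarith
    · by_cases hj : j = 0
      · by_cases hk : k = 0
        · subst hj; subst hk
          have h1 := p3 0 0 i
          have h2 := p1 i 0 0 hi
          linarith
        · subst hj
          have h1 := p1 i 0 k hi
          have h2 := p2 0 k i hk hi
          have h3 := p1 k i 0 hk
          linarith
      · by_cases hk : k = 0
        · subst hk
          have h1 := p1 i j 0 hi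
          have h2 := p1 j 0 i hj
          have h3 := p2 0 i j hi hj
          linarith
        · have h1 := p1 i j k hi
          have h2 := p1 j k i hj
          have h3 := p1 k i j hk
          linarith
  · intro x u hu
    rw [wn_apply]
    exact hs x u hu
  · intro x u v
    rw [wn_apply, wn_apply]
    exact GG_inv s (jm_sq hJ x) (fun a b ha hja hb hjb =>
      inv_L (jm_sq hJ x) hBanti a b ha hja hb hjb) u v

end Vale.Agent.P204
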