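import Vale.Agent.P204.Avg

namespace Vale.Agent.P204
open Matrix MeasureTheory Set
open scoped ContDiff

noncomputable def bm (w : V → Matrix (Fin 4) (Fin 4) ℝ) : Matrix (Fin 4) (Fin 4) ℝ :=
  Matrix.of fun j k => if j = 0 ∨ k = 0 then 0 else avg (fun x => w x j k) 0

theorem bm_anti {w : V → Matrix (Fin 4) (Fin 4) ℝ} (hw : IsClosedForm w) (j k : Fin 4) :
    bm w j k = -bm w k j := by
  unfold bm
  simp only [Matrix.of_apply]
  by_cases h : j = 0 ∨ k = 0
  · rw [if_pos h, if_pos (Or.symm h)]; simp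
  · rw [if_neg h, if_neg (fun h' => h (Or.symm h'))]
    unfold avg
    rw [← integral_neg]
    refine integral_congr_ae (Filter.Eventually.of_forall fun x => ?_)
    exact hw.anti _ j k

theorem bm_eq {w : V → Matrix (Fin 4) (Fin 4) ℝ} (hw : IsClosedForm w) (t : ℝ) (u v : V)
    (hu : u 0 = 0) (hv : v 0 = 0) :
    u ⬝ᵥ (bm w *ᵥ v) = ∫ y in Icc (0 : Fin 3 → ℝ) 1, u ⬝ᵥ (w (emb t y) *ᵥ v) := by
  have hc : ∀ j k, Continuous (fun y => w (emb t y) j k) := fun j k =>
    (hw.smooth j k).1.continuous.comp (emb_cont t)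
  have hi : ∀ j k, IntegrableOn (fun y => u j * (w (emb t y) j k * v k))
      (Icc (0 : Fin 3 → ℝ) 1) := fun j k =>
    (continuous_const.mul ((hc j k).mul continuous_const)).continuousOn.integrableOn_compact
      isCompact_Icc
  have e : ∀ y, u ⬝ᵥ (w (emb t y) *ᵥ v) = ∑ j, ∑ k, u j * (w (emb t y) j k * v k) := by
    intro y
    simp [dotProduct, mulVec, Finset.mul_sum]
  simp_rw [e]
  rw [integral_finsetSum _ (fun j _ => integrable_finsetSum _ fun k _ => hi j k)]
  have e2 : u ⬝ᵥ (bm w *ᵥ v) = ∑ j, ∑ k, u j * (bm w j k * v k) := by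
    simp [dotProduct, mulVec, Finset.mul_sum]
  rw [e2]
  refine Finset.sum_congr rfl fun j _ => ?_
  rw [integral_finsetSum _ (fun k _ => hi j k)]
  refine Finset.sum_congr rfl fun k _ => ?_
  rw [integral_const_mul, integral_mul_const]
  by_cases hj : j = 0
  · subst hj; rw [hu]; simp
  by_cases hk : k = 0
  · subst hk; rw [hv]; simp
  congr 2
  unfold bm
  simp only [Matrix.of_apply, hj, hk, or_self, if_false]
  exact avg_const hw hj hk 0 t

theorem bm_pos {w J : V → Matrix (Fin 4) (Fin 4) ℝ} (hw : IsClosedForm w)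
    (hJi : ∀ x y : V, x 0 = y 0 → J x = J y) (hT : Tames w J) (x : V) (u : V)
    (hu : u ≠ 0) (hu0 : u 0 = 0) (hju : (J x *ᵥ u) 0 = 0) :
    0 < u ⬝ᵥ (bm w *ᵥ (J x *ᵥ u)) := by
  rw [bm_eq hw (x 0) u _ hu0 hju]
  have hc : ∀ j k, Continuous (fun y => w (emb (x 0) y) j k) := fun j k =>
    (hw.smooth j k).1.continuous.comp (emb_cont (x 0))
  set f : (Fin 3 → ℝ) → ℝ := fun y => u ⬝ᵥ (w (emb (x 0) y) *ᵥ (J x *ᵥ u)) with hf
  have hfc : Continuous f := by
    rw [hf]
    have : ∀ y, u ⬝ᵥ (w (emb (x 0) y) *ᵥ (J x *ᵥ u))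
        = ∑ j, ∑ k, u j * (w (emb (x 0) y) j k * (J x *ᵥ u) k) := by
      intro y
      simp only [dotProduct, mulVec, Finset.mul_sum]
    simp_rw [this]
    exact continuous_finsetSum _ fun j _ => continuous_finsetSum _ fun k _ =>
      continuous_const.mul ((hc j k).mul continuous_const)
  have hfp : ∀ y, 0 < f y := by
    intro y
    have h1 : J x = J (emb (x 0) y) := hJi _ _ (by rw [emb_zero])
    rw [hf]
    simp only
    rw [h1]
    exact hT _ u hu
  obtain ⟨y0, _, hy0⟩ := (isCompact_Icc (a := (0 : Fin 3 → ℝ)) (b := 1)).exists_isMinOn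
    ⟨0, by simp⟩ hfc.continuousOn
  have h1 : volume.real (Icc (0 : Fin 3 → ℝ) 1) • f y0 ≤ ∫ y in Icc (0 : Fin 3 → ℝ) 1, f y :=
    setIntegral_ge_of_const_le measurableSet_Icc
      (isCompact_Icc.measure_lt_top.ne) (fun y hy => hy0 hy)
      (hfc.continuousOn.integrableOn_compact isCompact_Icc)
  have h2 : volume.real (Icc (0 : Fin 3 → ℝ) 1) = 1 := by
    rw [measureReal_def, Real.volume_Icc_pi]; simp
  rw [h2, one_smul] at h1
  exact (hfp y0).trans_le h1

theorem exists_s {X : Type*} [TopologicalSpace X] {K : Set X} (hK : IsCompact K) {f g : X → ℝ}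
    (hf : Continuous f) (hg : Continuous g) (hg0 : ∀ x ∈ K, 0 ≤ g x)
    (h : ∀ x ∈ K, g x = 0 → 0 < f x) : ∃ s : ℝ, ∀ x ∈ K, 0 < f x + s * g x := by
  have hK' : IsCompact (K ∩ {x | f x ≤ 0}) := hK.inter_right (isClosed_le hf continuous_const)
  rcases (K ∩ {x | f x ≤ 0}).eq_empty_or_nonempty with he | hne
  · refine ⟨0, fun x hx => ?_⟩
    rw [zero_mul, add_zero]
    by_contra hc
    have : x ∈ K ∩ {x | f x ≤ 0} := ⟨hx, not_lt.1 hc⟩
    rw [he] at this
    exact this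
  · obtain ⟨a, ha, hamin⟩ := hK'.exists_isMinOn hne hf.continuousOn
    obtain ⟨b, hb, hbmin⟩ := hK'.exists_isMinOn hne hg.continuousOn
    have hgb : 0 < g b := by
      rcases (hg0 b hb.1).lt_or_eq with h' | h'
      · exact h'
      · exact absurd (h b hb.1 h'.symm) (not_lt.2 hb.2)
    have hfa : f a ≤ 0 := ha.2
    have hs : 0 ≤ (1 - f a) / g b := div_nonneg (by linarith) hgb.le
    refine ⟨(1 - f a) / g b, fun x hx => ?_⟩
    by_cases hx' : f x ≤ 0
    · have h1 : f a ≤ f x := hamin ⟨hx, hx'⟩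
      have h2 : g b ≤ g x := hbmin ⟨hx, hx'⟩
      have h3 : (1 - f a) / g b * g b ≤ (1 - f a) / g b * g x := mul_le_mul_of_nonneg_left h2 hs
      rw [div_mul_cancel₀ _ hgb.ne'] at h3
      linarith
    · have := mul_nonneg hs (hg0 x hx)
      linarith [not_le.1 hx']

end Vale.Agent.P204
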